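import Vale.Agent.P113.Velocity
import Vale.Agent.P113.SyntaxPrimrec
import Vale.Agent.P113.Flow
import Vale.Agent.P113.Disc.Main

/-!
P113: a force compiler for halting detection by particle trajectories of forced Navier-Stokes
flows from rest, for every viscosity.
-/

namespace Vale.Agent.Results.P113.ForcedNSHalting

open Set Vale.Agent.P113
open scoped ContDiff

theorem result :
    ∃ (a lo hi : Fin 3 → ℚ) (T₀ : ℝ) (compile : Machine × List ℕ → Forces),
    (∀ i, lo i < hi i) ∧
    Computable compile ∧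
    (∀ M w w' i, ((compile (M, w)).component i).filter Term.isPeriodic
      = ((compile (M, w')).component i).filter Term.isPeriodic) ∧
    ∀ ν : ℝ, 0 < ν → ∀ (M : Machine) (w : List ℕ),
      (∀ i, ∀ τ ∈ (compile (M, w)).component i, τ.isPeriodic = false →
        ∀ t, T₀ ≤ t → ∀ x, τ.eval ν t x = 0) ∧
      ∃ (u : ℝ → (Fin 3 → ℝ) → Fin 3 → ℝ) (p : ℝ → (Fin 3 → ℝ) → ℝ),
        ContDiffOn ℝ ∞ (fun z : ℝ × (Fin 3 → ℝ) => u z.1 z.2) (Ici 0 ×ˢ univ) ∧
        ContDiffOn ℝ ∞ (fun z : ℝ × (Fin 3 → ℝ) => p z.1 z.2) (Ici 0 ×ˢ univ) ∧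
        (∀ T : ℝ, 0 < T →
          IsClassicalSolution ν ((compile (M, w)).eval ν) T u p ∧
          ∀ u' p', IsClassicalSolution ν ((compile (M, w)).eval ν) T u' p' →
            ∀ t ∈ Icc 0 T, ∀ x, u' t x = u t x ∧ p' t x = p t x) ∧
        (∃ X, IsTrajectory u (fun i => (a i : ℝ)) X) ∧
        ∀ X, IsTrajectory u (fun i => (a i : ℝ)) X →
          ((∃ t, 0 ≤ t ∧ InBox lo hi (X t)) ↔ M.Halts w) := by
  refine ⟨0, Disc.boxLo, Disc.boxHi, 1,
    fun z => forces (Disc.program z.1, Disc.startData z.1 z.2), ?_, ?_, ?_, ?_⟩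
  · intro i
    fin_cases i <;> norm_num [Disc.boxLo, Disc.boxHi]
  · exact (forces_primrec.comp Disc.primrec_input).to_comp
  · intro M w w' i
    exact forces_periodic (Disc.program M) (Disc.startData M w) (Disc.startData M w') i
  intro ν hν M w
  refine ⟨fun i τ hτ hper t ht x =>
    forces_vanish (Disc.program M) (Disc.startData M w) i τ hτ hper t ht ν x, ?_⟩
  obtain ⟨p, hu, hp, hsol⟩ := velocity_solution (Disc.program M) (Disc.startData M w) hν
  have h0 : (fun i : Fin 3 => (((0 : Fin 3 → ℚ) i : ℚ) : ℝ)) = 0 := by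
    funext i; simp
  refine ⟨velocity (Disc.program M) (Disc.startData M w), p, hu, hp, hsol, ?_, fun X hX => ?_⟩
  · rw [h0]
    exact trajectory_exists (Disc.program M) (Disc.startData M w)
  · rw [h0] at hX
    exact Disc.hit_iff M w X (trajectory_load _ _ hX)
      fun n x y x₁ x' y' h hs => trajectory_step _ (Disc.program_good M) _ hX n x y x₁ x' y' h hs

end Vale.Agent.Results.P113.ForcedNSHalting
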